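import Vale.Agent.P181.DX.H207.All
import Vale.Agent.P181.DX.H924.UniY
import Vale.Agent.P181.HO.Step1
import Vale.Agent.P181.HO.H752.Vac
import Vale.Agent.P181.HO.H352.Mark
import Vale.Agent.P181.HO.H357.AsmG
import Vale.Agent.P181.HO.H237.HoleX
import Vale.Agent.P181.HO.H605.Diag

set_option autoImplicit false

/-!
# P181, HO: the last hole near `w = 2 a`, without hypotheses
-/

namespace Vale.Agent.P181.HO

open Vale.Agent.P181.SZ Vale.Agent.P181.DG

/-- (HO3) -/
theorem markHc : MarkH := H352.markH vacStep1 H752.vacBase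

/-- (HO4) -/
theorem asmGc : AsmG :=
  H357.asmG DGx.H831.monoT DG2.H398.upT DU.H556.lowU DG9.disT DU.shiftT DG5.fewT
    DU.S317.W7.flowW DU.O244.flowX (fun a b m lam => R1a a b m lam) SZR2a.lowerA

/-- (HO5) -/
theorem holeXc : HoleX := H237.holeX asmGc markHc SZN3.lbcF SZN3.lbrF

/-- (HO6) -/
theorem diagHc : DiagH := H605.diagH holeXc

/-- **One sentence for all `a ≤ b`**, without the condition on `w - a - λ_3`. -/
theorem uniYc : DX.X924.UniY := DX.X924.uniY_of DX.diagWc diagHc TW.twice PLX.polyS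

end Vale.Agent.P181.HO
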